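import Vale.Agent.P126.Chain

/-!
For every `ε > 0` the duality conjecture for metric entropy holds, at a scale depending only on
`ε`, with the exponent `1 + ε` in place of `1`.
-/

open Set Finset
open scoped Pointwise

namespace Vale.Agent.Results.P126.AlmostLinearDuality

open Vale.Agent.P126

/-- Duality of metric entropy with exponent `1 + ε` at a scale depending only on `ε`. -/
theorem result :
    ∀ ε : ℝ, 0 < ε → ∃ a b : ℝ, 1 ≤ a ∧ 1 ≤ b ∧
      ∀ n : ℕ, ∀ K L : Set (Fin n → ℝ), IsSymBody K → IsSymBody L →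
        Real.log (coveringNumber K L) ≤
            b * Real.log (coveringNumber (polar L) (a⁻¹ • polar K)) ^ (1 + ε) ∧
        Real.log (coveringNumber (polar L) (a • polar K)) ≤
            b * Real.log (coveringNumber K L) ^ (1 + ε) := by
  intro ε hε
  obtain ⟨J0, hJ0⟩ := exists_nat_ge ε⁻¹
  set J := max J0 1 with hJ
  have hJ1 : 1 ≤ J := le_max_right _ _
  have hJR : (J:ℝ)⁻¹ ≤ ε := by
    have h : ε⁻¹ ≤ (J:ℝ) := hJ0.trans (by exact_mod_cast le_max_left J0 1)
    exact inv_le_of_inv_le₀ hε h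
  obtain ⟨a, b, ha, hb, hmain⟩ := log_coveringNumber_le_pow hJ1
  have h2ε : 1 ≤ (2:ℝ) ^ ε := Real.one_le_rpow one_le_two hε.le
  refine ⟨a, b * 2 ^ ε, ha, one_le_mul_of_one_le_of_one_le hb h2ε, fun n K L hK hL => ?_⟩
  have hconv : ∀ k : ℕ, b * (Real.log k * Real.log k ^ ((J:ℝ)⁻¹)) ≤
      b * 2 ^ ε * Real.log k ^ (1 + ε) := by
    intro k
    rcases Nat.lt_or_ge k 2 with hk | hk
    · have h0 : Real.log k = 0 := by interval_cases k <;> simp
      rw [h0, zero_mul, mul_zero]
      positivity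
    have hkR : (2:ℝ) ≤ k := by exact_mod_cast hk
    have hℓ : (1:ℝ) / 2 ≤ Real.log k := by
      have := Real.log_two_gt_d9
      have := Real.log_le_log two_pos hkR
      linarith
    have hℓ0 : 0 < Real.log k := by linarith
    rw [Real.rpow_add hℓ0, Real.rpow_one, mul_assoc b, mul_left_comm ((2:ℝ) ^ ε)]
    refine mul_le_mul_of_nonneg_left (mul_le_mul_of_nonneg_left ?_ hℓ0.le) (by linarith)
    rw [← Real.mul_rpow two_pos.le hℓ0.le]
    exact (Real.rpow_le_rpow hℓ0.le (by linarith) (by positivity)).trans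
      (Real.rpow_le_rpow_of_exponent_le (by linarith : (1:ℝ) ≤ 2 * Real.log k) hJR)
  have hnhds : ∀ A : Set (Fin n → ℝ), IsSymBody A → A ∈ nhds (0 : Fin n → ℝ) := by
    intro A hA
    obtain ⟨x, hx⟩ := hA.2.2.1
    refine mem_interior_iff_mem_nhds.1 ?_
    have h1 : -x ∈ A := hA.2.2.2 x (interior_subset hx)
    have h2 := hA.1.combo_interior_self_mem_interior hx h1
      (show (0:ℝ) < 1 / 2 by norm_num) (show (0:ℝ) ≤ 1 / 2 by norm_num) (by norm_num)
    simpa using h2
  have hK0 := hnhds K hK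
  have hL0 := hnhds L hL
  refine ⟨(hmain n K L hK.2.1 hK.1 hK.2.2.2 hL.1 hL.2.1.isClosed hL0 hL.2.2.2).trans (hconv _),
    ?_⟩
  have ha0 : a ≠ 0 := by linarith
  have h := hmain n (polar L) (a • polar K) (isCompact_polar hL0) (convex_polar L)
    (fun y hy => neg_mem_polar hL.2.2.2 hy) ((convex_polar K).smul _)
    (((isCompact_polar hK0).smul _).isClosed)
    ((set_smul_mem_nhds_zero_iff ha0).2 (polar_mem_nhds hK.2.1.isBounded))
    (by
      rintro x ⟨w, hw, rfl⟩
      exact ⟨-w, neg_mem_polar hK.2.2.2 hw, smul_neg _ _⟩)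
  rw [polar_smul ha0, polar_polar hK.1 hK.2.1.isClosed (mem_of_mem_nhds hK0),
    polar_polar hL.1 hL.2.1.isClosed (mem_of_mem_nhds hL0), coveringNumber_smul (inv_ne_zero ha0)]
    at h
  exact h.trans (hconv _)

end Vale.Agent.Results.P126.AlmostLinearDuality
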