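import Mathlib

/-!
For every scale `a < 2` both inequalities in the duality conjecture for metric entropy fail,
with an exponential gap.

`K` is the cross-polytope in dimension `n = 2 ^ d`, and `L` is the part of the cube where
the coordinates differ by at most `ell < 1`. The vertices of `K` need one translate each.
A vector `z` of the dilated polar of `L` has positive and negative mass at most `A < 2`, so
it is within sup-distance one of `(A - 1) * g` for a sign vector `g` that separates its few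
large positive from its few large negative coordinates; polynomially many (in `d`) such sign
vectors suffice.
-/

open Set Finset
open scoped Pointwise

namespace Vale.Agent.Results.P126.ScaleBelowTwo

/-- An origin-symmetric convex body of `ℝ^n`. -/
def IsSymBody {n : ℕ} (K : Set (Fin n → ℝ)) : Prop :=
  Convex ℝ K ∧ IsCompact K ∧ (interior K).Nonempty ∧ ∀ x ∈ K, -x ∈ K

/-- The polar for the standard inner product. -/
def polar {n : ℕ} (K : Set (Fin n → ℝ)) : Set (Fin n → ℝ) :=
  {y | ∀ x ∈ K, ∑ u, x u * y u ≤ 1}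

/-- The least number of translates of `B` whose union contains `A`. -/
noncomputable def coveringNumber {n : ℕ} (A B : Set (Fin n → ℝ)) : ℕ :=
  sInf {N : ℕ | ∃ c : Fin N → (Fin n → ℝ), A ⊆ ⋃ i, {y | y - c i ∈ B}}

variable {n : ℕ}

/-- The cross-polytope. -/
def cross (n : ℕ) : Set (Fin n → ℝ) := {x | ∑ u, |x u| ≤ 1}

/-- The cube. -/
def cube (n : ℕ) : Set (Fin n → ℝ) := {x | ∀ u, |x u| ≤ 1}

/-- The points of the cube with range at most `ell`. -/
def band (n : ℕ) (ell : ℝ) : Set (Fin n → ℝ) :=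
  {x | (∀ u, |x u| ≤ 1) ∧ ∀ u v, x u - x v ≤ ell}

lemma pairing_le {x y : Fin n → ℝ} {r : ℝ} (hy : ∀ u, |y u| ≤ r) :
    ∑ u, x u * y u ≤ r * ∑ u, |x u| := by
  rw [mul_sum]
  refine sum_le_sum (fun u _ => ?_)
  calc x u * y u ≤ |x u * y u| := le_abs_self _
    _ = |x u| * |y u| := abs_mul _ _
    _ ≤ |x u| * r := mul_le_mul_of_nonneg_left (hy u) (abs_nonneg _)
    _ = r * |x u| := mul_comm _ _

lemma sum_abs_single (u : Fin n) (r : ℝ) :
    ∑ v, |(Pi.single u r : Fin n → ℝ) v| = |r| := by
  rw [Finset.sum_eq_single u (fun v _ hv => by simp [Pi.single_eq_of_ne hv])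
    (fun h => absurd (Finset.mem_univ u) h)]
  simp

lemma sum_single_mul (u : Fin n) (r : ℝ) (y : Fin n → ℝ) :
    ∑ v, (Pi.single u r : Fin n → ℝ) v * y v = r * y u := by
  rw [Finset.sum_eq_single u (fun v _ hv => by simp [Pi.single_eq_of_ne hv])
    (fun h => absurd (Finset.mem_univ u) h)]
  simp

lemma polar_cross : polar (cross n) = cube n := by
  ext y
  constructor
  · intro hy u
    have h1 := hy (Pi.single u 1) (by simp [cross, sum_abs_single])
    have h2 := hy (Pi.single u (-1)) (by simp [cross, sum_abs_single])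
    rw [sum_single_mul] at h1 h2
    exact abs_le.2 ⟨by linarith, by linarith⟩
  · intro hy x hx
    have := pairing_le (x := x) hy
    have hx' : ∑ u, |x u| ≤ 1 := hx
    linarith

lemma mem_cube_nhds : cube n ∈ nhds (0 : Fin n → ℝ) := by
  refine Filter.mem_of_superset (Metric.closedBall_mem_nhds _ one_pos) (fun x hx u => ?_)
  have h := (norm_le_pi_norm x u).trans (mem_closedBall_zero_iff.1 hx)
  simpa [Real.norm_eq_abs] using h

lemma band_nhds {ell : ℝ} (hell : 0 < ell) (hell1 : ell ≤ 1) :
    band n ell ∈ nhds (0 : Fin n → ℝ) := by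
  refine Filter.mem_of_superset
    (Metric.closedBall_mem_nhds _ (half_pos hell)) (fun x hx => ?_)
  have h : ∀ u, |x u| ≤ ell / 2 := fun u => by
    simpa [Real.norm_eq_abs] using (norm_le_pi_norm x u).trans (mem_closedBall_zero_iff.1 hx)
  refine ⟨fun u => (h u).trans (by linarith), fun u v => ?_⟩
  have h1 := abs_le.1 (h u)
  have h2 := abs_le.1 (h v)
  linarith

lemma bounded_of_abs {S : Set (Fin n → ℝ)} {R : ℝ} (hR : 0 ≤ R)
    (h : ∀ x ∈ S, ∀ u, |x u| ≤ R) : Bornology.IsBounded S :=
  isBounded_iff_forall_norm_le.2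
    ⟨R, fun x hx => (pi_norm_le_iff_of_nonneg hR).2 (fun u => by
      simpa [Real.norm_eq_abs] using h x hx u)⟩

lemma isSymBody_cross : IsSymBody (cross n) := by
  refine ⟨?_, ?_, ?_, ?_⟩
  · intro x hx y hy s t hs ht hst
    have hx' : ∑ u, |x u| ≤ 1 := hx
    have hy' : ∑ u, |y u| ≤ 1 := hy
    calc ∑ u, |(s • x + t • y) u| ≤ ∑ u, (s * |x u| + t * |y u|) := by
          refine sum_le_sum (fun u _ => ?_)
          refine (abs_add_le _ _).trans (le_of_eq ?_)
          simp [abs_mul, abs_of_nonneg hs, abs_of_nonneg ht]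
      _ = s * ∑ u, |x u| + t * ∑ u, |y u| := by rw [sum_add_distrib, mul_sum, mul_sum]
      _ ≤ 1 := by nlinarith
  · refine Metric.isCompact_of_isClosed_isBounded ?_
      (bounded_of_abs zero_le_one (fun x hx u =>
        (single_le_sum (f := fun v => |x v|) (fun v _ => abs_nonneg _) (mem_univ u)).trans hx))
    exact isClosed_le (by fun_prop) continuous_const
  · refine ⟨0, mem_interior_iff_mem_nhds.2 ?_⟩
    have hn : (0:ℝ) < 1 / (n + 1) := by positivity
    refine Filter.mem_of_superset (Metric.closedBall_mem_nhds _ hn) (fun x hx => ?_)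
    have h : ∀ u, |x u| ≤ 1 / ((n:ℝ) + 1) := fun u => by
      simpa [Real.norm_eq_abs] using (norm_le_pi_norm x u).trans (mem_closedBall_zero_iff.1 hx)
    calc ∑ u, |x u| ≤ ∑ _u : Fin n, 1 / ((n:ℝ) + 1) := sum_le_sum (fun u _ => h u)
      _ = n / ((n:ℝ) + 1) := by simp [div_eq_mul_inv]
      _ ≤ 1 := (div_le_one (by positivity)).2 (by linarith)
  · intro x hx
    simpa [cross] using hx

lemma isSymBody_band {ell : ℝ} (hell : 0 < ell) (hell1 : ell ≤ 1) :
    IsSymBody (band n ell) := by
  refine ⟨?_, ?_, ⟨0, mem_interior_iff_mem_nhds.2 (band_nhds hell hell1)⟩, ?_⟩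
  · intro x hx y hy s t hs ht hst
    refine ⟨fun u => abs_le.2 ⟨?_, ?_⟩, fun u v => ?_⟩
    · have := (abs_le.1 (hx.1 u)).1
      have := (abs_le.1 (hy.1 u)).1
      simp only [Pi.add_apply, Pi.smul_apply, smul_eq_mul]
      nlinarith
    · have := (abs_le.1 (hx.1 u)).2
      have := (abs_le.1 (hy.1 u)).2
      simp only [Pi.add_apply, Pi.smul_apply, smul_eq_mul]
      nlinarith
    · have := hx.2 u v
      have := hy.2 u v
      simp only [Pi.add_apply, Pi.smul_apply, smul_eq_mul]
      nlinarith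
  · refine Metric.isCompact_of_isClosed_isBounded ?_
      (bounded_of_abs zero_le_one (fun x hx => hx.1))
    have : band n ell = (⋂ u, {x | |x u| ≤ 1}) ∩ ⋂ u, ⋂ v, {x | x u - x v ≤ ell} := by
      ext x; simp [band]
    rw [this]
    exact (isClosed_iInter fun u => isClosed_le (by fun_prop) continuous_const).inter
      (isClosed_iInter fun u => isClosed_iInter fun v =>
        isClosed_le (by fun_prop) continuous_const)
  · intro x hx
    refine ⟨fun u => by simpa using hx.1 u, fun u v => ?_⟩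
    have := hx.2 v u
    simp only [Pi.neg_apply]
    linarith

/-- Both mass bounds for the polar of the band. -/
lemma polar_band_mass {ell : ℝ} (hell : 0 < ell) (hell1 : ell ≤ 1) {y : Fin n → ℝ}
    (hy : y ∈ polar (band n ell)) (P : Finset (Fin n)) :
    ∑ u ∈ P, y u ≤ 1 / ell ∧ ∑ u ∈ P, (-y u) ≤ 1 / ell := by
  classical
  have key : ∀ r : ℝ, |r| = ell → r * ∑ u ∈ P, y u ≤ 1 := by
    intro r hr
    have hmem : (fun u => if u ∈ P then r else 0) ∈ band n ell := by
      have hr' := abs_le.1 hr.le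
      refine ⟨fun u => ?_, fun u v => ?_⟩
      · simp only
        split
        · linarith
        · simp
      · simp only
        split <;> split <;> linarith
    have h := hy _ hmem
    simp only [ite_mul, zero_mul, sum_ite_mem, Finset.univ_inter] at h
    rwa [mul_sum]
  have h1 := key ell (abs_of_pos hell)
  have h2 := key (-ell) (by rw [abs_neg, abs_of_pos hell])
  rw [sum_neg_distrib]
  constructor
  · rw [le_div_iff₀ hell]; linarith
  · rw [le_div_iff₀ hell]; linarith

lemma isSymBody_polar_band {ell : ℝ} (hell : 0 < ell) (hell1 : ell ≤ 1) :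
    IsSymBody (polar (band n ell)) := by
  refine ⟨?_, ?_, ⟨0, mem_interior_iff_mem_nhds.2 ?_⟩, ?_⟩
  · intro x hx y hy s t hs ht hst z hz
    have h1 := hx z hz
    have h2 := hy z hz
    simp only [Pi.add_apply, Pi.smul_apply, smul_eq_mul, mul_add, sum_add_distrib, mul_left_comm,
      ← mul_sum]
    nlinarith
  · refine Metric.isCompact_of_isClosed_isBounded ?_
      (bounded_of_abs (R := 1 / ell) (by positivity) (fun y hy u => ?_))
    · have : polar (band n ell) = ⋂ x ∈ band n ell, {y | ∑ u, x u * y u ≤ 1} := by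
        ext y; simp [polar]
      rw [this]
      exact isClosed_biInter fun x _ => isClosed_le (by fun_prop) continuous_const
    · have := polar_band_mass hell hell1 hy {u}
      simp only [sum_singleton] at this
      exact abs_le.2 ⟨by linarith [this.2], this.1⟩
  · have hn : (0:ℝ) < 1 / (n + 1) := by positivity
    refine Filter.mem_of_superset (Metric.closedBall_mem_nhds _ hn) (fun y hy z hz => ?_)
    have h : ∀ u, |y u| ≤ 1 / ((n:ℝ) + 1) := fun u => by
      simpa [Real.norm_eq_abs] using (norm_le_pi_norm y u).trans (mem_closedBall_zero_iff.1 hy)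
    have hz' : ∑ u, |z u| ≤ (n:ℝ) + 1 :=
      (sum_le_sum (fun u (_ : u ∈ (univ : Finset (Fin n))) => hz.1 u)).trans (by simp)
    calc ∑ u, z u * y u ≤ 1 / ((n:ℝ) + 1) * ∑ u, |z u| := pairing_le h
      _ ≤ 1 / ((n:ℝ) + 1) * ((n:ℝ) + 1) := mul_le_mul_of_nonneg_left hz' hn.le
      _ = 1 := by field_simp
  · intro y hy z hz
    have h := hy (-z) ((isSymBody_band hell hell1).2.2.2 z hz)
    simpa using h

lemma isSymBody_smul_cube {r : ℝ} (hr : 0 < r) : IsSymBody (r • cube n) := by
  refine ⟨Convex.smul ?_ r, IsCompact.smul r ?_,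
    ⟨0, mem_interior_iff_mem_nhds.2 ?_⟩, ?_⟩
  · intro x hx y hy s t hs ht hst u
    have h1 := abs_le.1 (hx u)
    have h2 := abs_le.1 (hy u)
    refine abs_le.2 ⟨?_, ?_⟩ <;>
      simp only [Pi.add_apply, Pi.smul_apply, smul_eq_mul] <;> nlinarith
  · refine Metric.isCompact_of_isClosed_isBounded ?_ (bounded_of_abs zero_le_one (fun x hx => hx))
    have : cube n = ⋂ u, {x | |x u| ≤ 1} := by ext x; simp [cube]
    rw [this]
    exact isClosed_iInter fun u => isClosed_le (by fun_prop) continuous_const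
  · exact (set_smul_mem_nhds_zero_iff hr.ne').2 mem_cube_nhds
  · intro x hx
    rw [mem_smul_set_iff_inv_smul_mem₀ hr.ne'] at hx ⊢
    simpa [cube] using hx

lemma polar_smul_cube {a : ℝ} (ha : 0 < a) : polar (a⁻¹ • cube n) = a • cross n := by
  ext y
  rw [mem_smul_set_iff_inv_smul_mem₀ ha.ne']
  constructor
  · intro hy
    have h := hy (a⁻¹ • fun u => if 0 ≤ y u then 1 else -1)
      (smul_mem_smul_set (fun u => by split <;> simp))
    refine le_trans (le_of_eq (sum_congr rfl fun u _ => ?_)) h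
    simp only [Pi.smul_apply, smul_eq_mul, abs_mul, abs_of_pos (inv_pos.2 ha)]
    split
    · rw [abs_of_nonneg ‹_›]; ring
    · rw [abs_of_neg (not_le.1 ‹_›)]; ring
  · rintro hy x ⟨w, hw, rfl⟩
    have h := pairing_le (x := a⁻¹ • y) (y := w) hw
    have hy' : ∑ u, |(a⁻¹ • y) u| ≤ 1 := hy
    calc ∑ u, (a⁻¹ • w) u * y u = ∑ u, (a⁻¹ • y) u * w u :=
          sum_congr rfl fun u _ => by simp only [Pi.smul_apply, smul_eq_mul]; ring
      _ ≤ 1 := by linarith

lemma polar_polar_band {ell : ℝ} (hell : 0 < ell) (hell1 : ell ≤ 1) :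
    polar (polar (band n ell)) = band n ell := by
  ext x
  constructor
  · intro hx
    refine ⟨fun u => ?_, fun u v => ?_⟩
    · have key : ∀ r : ℝ, |r| = 1 → r * x u ≤ 1 := by
        intro r hr
        have hm : Pi.single u r ∈ polar (band n ell) := by
          intro z hz
          have hz' : |z u * r| ≤ 1 := by rw [abs_mul, hr, mul_one]; exact hz.1 u
          simpa [mul_comm (z _), sum_single_mul] using (le_abs_self _).trans hz'
        have := hx _ hm
        rwa [sum_single_mul] at this
      have h1 := key 1 (by simp)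
      have h2 := key (-1) (by simp)
      exact abs_le.2 ⟨by linarith, by linarith⟩
    · have hm : Pi.single u (1 / ell) + Pi.single v (-(1 / ell)) ∈ polar (band n ell) := by
        intro z hz
        simp only [Pi.add_apply, mul_add, sum_add_distrib]
        simp only [mul_comm (z _), sum_single_mul]
        have h1 : (z u - z v) * (1 / ell) ≤ ell * (1 / ell) :=
          mul_le_mul_of_nonneg_right (hz.2 u v) (by positivity)
        rw [mul_one_div_cancel hell.ne'] at h1
        linarith
      have := hx _ hm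
      simp only [Pi.add_apply, add_mul, sum_add_distrib, sum_single_mul] at this
      have h3 : (x u - x v) / ell ≤ 1 := by
        rw [sub_div, div_eq_mul_inv, div_eq_mul_inv]
        rw [one_div] at this
        linarith
      rwa [div_le_one hell] at h3
  · intro hx y hy
    simpa [mul_comm] using hy x hx

/-- The covering number is attained for a compact set and a neighbourhood of the origin. -/
lemma exists_cover {A B : Set (Fin n → ℝ)} (hA : IsCompact A) (hB : B ∈ nhds 0) :
    ∃ c : Fin (coveringNumber A B) → (Fin n → ℝ), A ⊆ ⋃ i, {y | y - c i ∈ B} := by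
  have hne : {N : ℕ | ∃ c : Fin N → (Fin n → ℝ), A ⊆ ⋃ i, {y | y - c i ∈ B}}.Nonempty := by
    obtain ⟨t, _, htA⟩ := hA.elim_nhds_subcover (fun x => {y | y - x ∈ B}) (fun x _ =>
      (continuous_id.sub continuous_const).continuousAt.preimage_mem_nhds (by simpa using hB))
    refine ⟨t.card, fun i => (t.equivFin.symm i : Fin n → ℝ), fun y hy => ?_⟩
    obtain ⟨x, hx, hxy⟩ := mem_iUnion₂.1 (htA hy)
    exact mem_iUnion.2 ⟨t.equivFin ⟨x, hx⟩, by simpa using hxy⟩
  exact Nat.sInf_mem hne

/-- Vertices of the cross-polytope need one translate of the band each. -/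
lemma card_le_coveringNumber {ell a : ℝ} (hell : 0 < ell) (hell1 : ell < 1) (ha : 0 < a) :
    n ≤ coveringNumber (a • cross n) (a • band n ell) := by
  obtain ⟨c, hc⟩ := exists_cover (isSymBody_cross.2.1.smul a)
    ((set_smul_mem_nhds_zero_iff ha.ne').2 (band_nhds (n := n) hell hell1.le))
  have hmem : ∀ u : Fin n, ∃ i, Pi.single u a - c i ∈ a • band n ell := by
    intro u
    refine mem_iUnion.1 (hc ?_)
    rw [mem_smul_set_iff_inv_smul_mem₀ ha.ne']
    have : a⁻¹ • (Pi.single u a : Fin n → ℝ) = Pi.single u 1 := by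
      rw [← Pi.single_smul']; simp [ha.ne']
    rw [this]
    simp [cross, sum_abs_single]
  choose f hf using hmem
  have hinj : Function.Injective f := by
    intro u v huv
    by_contra hne
    obtain ⟨w, hw, hwu⟩ := hf u
    obtain ⟨w', hw', hwv⟩ := hf v
    have e : ∀ k, a * (w k - w' k) =
        (Pi.single u a : Fin n → ℝ) k - (Pi.single v a : Fin n → ℝ) k := by
      intro k
      have h1 := congrFun hwu k
      have h2 := congrFun hwv k
      simp only [Pi.smul_apply, smul_eq_mul, Pi.sub_apply] at h1 h2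
      rw [huv] at h1
      linarith
    have e1 := e u
    have e2 := e v
    simp only [Pi.single_eq_same, Pi.single_eq_of_ne hne, Pi.single_eq_of_ne (Ne.symm hne)]
      at e1 e2
    have d1 : w u - w' u = 1 := mul_left_cancel₀ ha.ne' (by linarith)
    have d2 : w v - w' v = -1 := mul_left_cancel₀ ha.ne' (by linarith)
    have := hw.2 u v
    have := hw'.2 v u
    linarith
  simpa using Fintype.card_le_of_injective f hinj

/-- A sign pattern is fixed by `q * q` coordinates of the code and a rule on their values. -/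
lemma exists_separating {d q : ℕ} (hd : 1 ≤ d) (e : Fin n ≃ (Fin d → Bool))
    (P N : Finset (Fin n)) (hPN : Disjoint P N) (hP : P.card ≤ q) (hN : N.card ≤ q) :
    ∃ p : (Fin q × Fin q → Fin d) × ((Fin q × Fin q → Bool) → Bool),
      (∀ u ∈ P, p.2 (fun k => e u (p.1 k)) = true) ∧
      ∀ u ∈ N, p.2 (fun k => e u (p.1 k)) = false := by
  classical
  have hdiff : ∀ u v : Fin n, ∃ i : Fin d, u ≠ v → e u i ≠ e v i := by
    intro u v
    by_cases h : u = v
    · exact ⟨⟨0, hd⟩, fun h' => absurd h h'⟩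
    · obtain ⟨i, hi⟩ := Function.ne_iff.1 (e.injective.ne h)
      exact ⟨i, fun _ => hi⟩
  choose D hD using hdiff
  let I : Fin q × Fin q → Fin d := fun k =>
    if h : (k.1 : ℕ) < P.card ∧ (k.2 : ℕ) < N.card then
      D (P.equivFin.symm ⟨k.1, h.1⟩) (N.equivFin.symm ⟨k.2, h.2⟩)
    else ⟨0, hd⟩
  refine ⟨(I, fun pat => decide (∃ u ∈ P, pat = fun k => e u (I k))),
    fun u hu => decide_eq_true ⟨u, hu, rfl⟩, fun v hv => decide_eq_false ?_⟩
  rintro ⟨u, hu, huv⟩
  let k : Fin q × Fin q :=
    (⟨(P.equivFin ⟨u, hu⟩ : ℕ), (P.equivFin ⟨u, hu⟩).2.trans_le hP⟩,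
      ⟨(N.equivFin ⟨v, hv⟩ : ℕ), (N.equivFin ⟨v, hv⟩).2.trans_le hN⟩)
  have hIk : I k = D u v := by
    simp only [I, k]
    rw [dif_pos ⟨(P.equivFin ⟨u, hu⟩).2, (N.equivFin ⟨v, hv⟩).2⟩]
    simp
  have hne : u ≠ v := fun h => Finset.disjoint_left.1 hPN hu (h ▸ hv)
  have := congrFun huv k
  simp only [hIk] at this
  exact hD u v hne this.symm

/-- Few translates of a dilated cube cover the polar of the band. -/
lemma coveringNumber_polar_band_le {d q : ℕ} (hd : 1 ≤ d) (e : Fin n ≃ (Fin d → Bool))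
    {a ell : ℝ} (ha : 1 ≤ a) (hell : 0 < ell) (hell1 : ell < 1) (hA : a / ell < 2)
    (hq : a / ell ≤ q * (2 - a / ell)) :
    coveringNumber (polar (band n ell)) (a⁻¹ • cube n) ≤
      d ^ (q * q) * 2 ^ 2 ^ (q * q) := by
  classical
  set A := a / ell with hAdef
  have ha0 : 0 < a := by linarith
  have hA1 : 1 ≤ A := by rw [hAdef, le_div_iff₀ hell]; linarith
  have hqR : (0:ℝ) < q := by
    rcases Nat.eq_zero_or_pos q with h | h
    · subst h; norm_num at hq; linarith
    · exact_mod_cast h
  have hth : A / q ≤ 2 - A := by rw [div_le_iff₀ hqR]; linarith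
  let X := (Fin q × Fin q → Fin d) × ((Fin q × Fin q → Bool) → Bool)
  let g : X → Fin n → ℝ := fun p u =>
    a⁻¹ * if p.2 (fun k => e u (p.1 k)) = true then A - 1 else -(A - 1)
  have hcard : Fintype.card X = d ^ (q * q) * 2 ^ 2 ^ (q * q) := by simp [X]
  rw [← hcard]
  refine Nat.sInf_le ⟨fun i => g ((Fintype.equivFin X).symm i), fun y hy => ?_⟩
  have hmass : ∀ Q : Finset (Fin n),
      ∑ u ∈ Q, a * y u ≤ A ∧ ∑ u ∈ Q, a * (-y u) ≤ A := by
    intro Q
    have h := polar_band_mass hell hell1.le hy Q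
    rw [← mul_sum, ← mul_sum, hAdef, div_eq_mul_one_div]
    exact ⟨mul_le_mul_of_nonneg_left h.1 ha0.le, mul_le_mul_of_nonneg_left h.2 ha0.le⟩
  set P : Finset (Fin n) := univ.filter (fun u => A / q < a * y u) with hP
  set N : Finset (Fin n) := univ.filter (fun u => A / q < a * (-y u)) with hN
  have hA0 : 0 ≤ A / q := by positivity
  have hdis : Disjoint P N := by
    rw [Finset.disjoint_left]
    intro u hu hu'
    simp [hP, hN] at hu hu'
    linarith
  have hsmall : ∀ (Q : Finset (Fin n)) (z : Fin n → ℝ),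
      (∀ u ∈ Q, A / q < z u) → ∑ u ∈ Q, z u ≤ A → Q.card ≤ q := by
    intro Q z hz hs
    have h1 : (Q.card : ℝ) * (A / q) ≤ A := by
      refine le_trans ?_ hs
      rw [← nsmul_eq_mul]
      exact card_nsmul_le_sum _ _ _ (fun u hu => (hz u hu).le)
    have h2 : (Q.card : ℝ) ≤ q := by
      rw [← mul_div_assoc, div_le_iff₀ hqR] at h1
      nlinarith
    exact_mod_cast h2
  obtain ⟨p, hpP, hpN⟩ := exists_separating hd e P N hdis
    (hsmall P (fun u => a * y u) (fun u hu => by simpa [hP] using hu) (hmass P).1)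
    (hsmall N (fun u => a * (-y u)) (fun u hu => by simpa [hN] using hu) (hmass N).2)
  refine mem_iUnion.2 ⟨Fintype.equivFin X p, ?_⟩
  simp only [Set.mem_ofPred_eq, Equiv.symm_apply_apply]
  rw [mem_smul_set_iff_inv_smul_mem₀ (inv_ne_zero ha0.ne'), inv_inv]
  intro u
  have hu1 := (hmass {u}).1
  have hu2 := (hmass {u}).2
  simp only [sum_singleton] at hu1 hu2
  have hval : (a • (y - g p)) u = a * y u -
      if p.2 (fun k => e u (p.1 k)) = true then A - 1 else -(A - 1) := by
    simp only [Pi.smul_apply, Pi.sub_apply, smul_eq_mul, g]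
    rw [mul_sub, ← mul_assoc, mul_inv_cancel₀ ha0.ne', one_mul]
  rw [hval]
  by_cases h1 : u ∈ P
  · rw [if_pos (hpP u h1)]
    have : A / q < a * y u := by simpa [hP] using h1
    exact abs_le.2 ⟨by linarith, by linarith⟩
  · have h1' : a * y u ≤ A / q := not_lt.1 (by simpa [hP] using h1)
    by_cases h2 : u ∈ N
    · rw [if_neg (by simp [hpN u h2])]
      have : A / q < a * (-y u) := by simpa [hN] using h2
      exact abs_le.2 ⟨by linarith, by linarith⟩
    · have h2' : a * (-y u) ≤ A / q := not_lt.1 (by simpa [hN] using h2)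
      split <;> exact abs_le.2 ⟨by linarith, by linarith⟩

/-- The quantitative statement. -/
lemma exponential_gap {a : ℝ} (ha : 1 ≤ a) (ha2 : a < 2) :
    ∃ C p : ℕ, ∀ d : ℕ, 1 ≤ d → ∃ n : ℕ, ∃ K L K' L' : Set (Fin n → ℝ),
      IsSymBody K ∧ IsSymBody L ∧ IsSymBody K' ∧ IsSymBody L' ∧
      2 ^ d ≤ coveringNumber K L ∧
      coveringNumber (polar L) (a⁻¹ • polar K) ≤ C * d ^ p ∧
      coveringNumber K' L' ≤ C * d ^ p ∧
      2 ^ d ≤ coveringNumber (polar L') (a • polar K') := by
  set ell := (a + 2) / 4 with hell_def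
  have hell : 0 < ell := by rw [hell_def]; linarith
  have hell1 : ell < 1 := by rw [hell_def]; linarith
  have hA : a / ell < 2 := by rw [div_lt_iff₀ hell, hell_def]; linarith
  obtain ⟨q, hq⟩ := exists_nat_ge (a / ell / (2 - a / ell))
  rw [div_le_iff₀ (by linarith)] at hq
  refine ⟨2 ^ 2 ^ (q * q), q * q, fun d hd => ?_⟩
  have ha0 : 0 < a := by linarith
  let e : Fin (2 ^ d) ≃ (Fin d → Bool) := (Fintype.equivFinOfCardEq (by simp)).symm
  have hup := coveringNumber_polar_band_le hd e ha hell hell1 hA hq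
  rw [mul_comm (d ^ _)] at hup
  refine ⟨2 ^ d, cross _, band _ ell, polar (band _ ell), a⁻¹ • cube _, isSymBody_cross,
    isSymBody_band hell hell1.le, isSymBody_polar_band hell hell1.le,
    isSymBody_smul_cube (inv_pos.2 ha0), ?_, ?_, hup, ?_⟩
  · simpa [one_smul] using card_le_coveringNumber (n := 2 ^ d) hell hell1 one_pos
  · rwa [polar_cross]
  · rw [polar_smul_cube ha0, polar_polar_band hell hell1.le]
    exact card_le_coveringNumber hell hell1 ha0

/-- For a large `d`, `2 ^ d` beats every power of `C * d ^ p`. -/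
lemma exists_large (C p : ℕ) (b : ℝ) : ∃ d : ℕ, 1 ≤ d ∧ ∀ N M : ℕ,
    N ≤ C * d ^ p → 2 ^ d ≤ M → b * Real.log N < Real.log M := by
  have hlog2 : 0 < Real.log 2 := Real.log_pos one_lt_two
  set B := max b 0 with hB
  have hB0 : 0 ≤ B := le_max_right _ _
  have hlim := (Real.isLittleO_log_id_atTop.comp_tendsto
    tendsto_natCast_atTop_atTop).def
    (show (0:ℝ) < Real.log 2 / (2 * (B * p + 1)) by positivity)
  obtain ⟨D, hD⟩ := Filter.eventually_atTop.1 hlim
  obtain ⟨E, hE⟩ := exists_nat_gt (2 * (B * Real.log (C + 1)) / Real.log 2)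
  refine ⟨max (max D E) 1, le_max_right _ _, fun N M hN hM => ?_⟩
  set d := max (max D E) 1 with hd
  have hd1 : (1:ℕ) ≤ d := le_max_right _ _
  have hd0 : (0:ℝ) < d := by exact_mod_cast hd1
  have h1 : Real.log d ≤ Real.log 2 / (2 * (B * p + 1)) * d := by
    have := hD d (le_trans (le_max_left _ _) (le_max_left _ _))
    simp only [Function.comp_apply, id, Real.norm_eq_abs, abs_of_pos hd0] at this
    exact (le_abs_self _).trans this
  have hlogN : Real.log N ≤ Real.log (C + 1) + p * Real.log d := by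
    rw [← Real.log_pow, ← Real.log_mul (by positivity) (by positivity)]
    rcases Nat.eq_zero_or_pos N with h | h
    · subst h
      rw [Nat.cast_zero, Real.log_zero]
      refine Real.log_nonneg (one_le_mul_of_one_le_of_one_le (by simp) ?_)
      exact one_le_pow₀ (by exact_mod_cast hd1)
    · refine Real.log_le_log (by exact_mod_cast h) ?_
      calc (N:ℝ) ≤ ((C * d ^ p : ℕ) : ℝ) := by exact_mod_cast hN
        _ ≤ ((C:ℝ) + 1) * (d:ℝ) ^ p := by
            push_cast
            exact mul_le_mul_of_nonneg_right (by linarith) (by positivity)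
  have hlogM : (d:ℝ) * Real.log 2 ≤ Real.log M := by
    rw [← Real.log_pow]
    exact Real.log_le_log (by positivity) (by exact_mod_cast hM)
  have hN0 : 0 ≤ Real.log N := Real.log_natCast_nonneg N
  have h2 : b * Real.log N ≤ B * (Real.log (C + 1) + p * Real.log d) :=
    (mul_le_mul_of_nonneg_right (le_max_left _ _) hN0).trans
      (mul_le_mul_of_nonneg_left hlogN hB0)
  have h3 : B * (p * Real.log d) ≤ Real.log 2 / 2 * d := by
    have h4 : B * p * Real.log d ≤ (B * p + 1) * Real.log d :=
      mul_le_mul_of_nonneg_right (by linarith) (Real.log_natCast_nonneg d)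
    have h5 := mul_le_mul_of_nonneg_left h1 (show 0 ≤ B * p + 1 by positivity)
    have h6 : (B * p + 1) * (Real.log 2 / (2 * (B * p + 1)) * d) = Real.log 2 / 2 * d := by
      field_simp
    nlinarith
  have h7 : B * Real.log (C + 1) < Real.log 2 / 2 * d := by
    have hEd : (E:ℝ) ≤ d := by
      exact_mod_cast le_trans (le_max_right D E) (le_max_left _ 1)
    rw [div_lt_iff₀ hlog2] at hE
    nlinarith
  nlinarith

/-- Both inequalities of the duality conjecture fail for every scale `1 ≤ a < 2`. -/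
theorem result :
    ∀ a : ℝ, 1 ≤ a → a < 2 →
      (∀ b : ℝ,
        (∃ n : ℕ, 1 ≤ n ∧ ∃ K L : Set (Fin n → ℝ), IsSymBody K ∧ IsSymBody L ∧
          b * Real.log (coveringNumber (polar L) (a⁻¹ • polar K)) <
            Real.log (coveringNumber K L)) ∧
        (∃ n : ℕ, 1 ≤ n ∧ ∃ K L : Set (Fin n → ℝ), IsSymBody K ∧ IsSymBody L ∧
          b * Real.log (coveringNumber K L) <
            Real.log (coveringNumber (polar L) (a • polar K)))) ∧
      ∃ C p : ℕ, ∀ d : ℕ, 1 ≤ d → ∃ n : ℕ, ∃ K L : Set (Fin n → ℝ),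
        IsSymBody K ∧ IsSymBody L ∧ 2 ^ d ≤ coveringNumber K L ∧
        coveringNumber (polar L) (a⁻¹ • polar K) ≤ C * d ^ p := by
  intro a ha ha2
  obtain ⟨C, p, h⟩ := exponential_gap ha ha2
  refine ⟨fun b => ?_, C, p, fun d hd => ?_⟩
  · obtain ⟨d, hd, hbig⟩ := exists_large C p b
    obtain ⟨n, K, L, K', L', hK, hL, hK', hL', h1, h2, h3, h4⟩ := h d hd
    have hn : 1 ≤ n := by
      rcases Nat.eq_zero_or_pos n with h0 | h0
      · exfalso
        subst h0
        have : coveringNumber K L ≤ 1 := by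
          refine Nat.sInf_le ⟨fun _ => 0, fun y _ => mem_iUnion.2 ⟨0, ?_⟩⟩
          obtain ⟨w, hw⟩ := hL.2.2.1.mono interior_subset
          show y - 0 ∈ L
          rwa [Subsingleton.elim (y - 0) w]
        have : 2 ≤ 2 ^ d := Nat.le_self_pow (by omega) 2
        omega
      · exact h0
    exact ⟨⟨n, hn, K, L, hK, hL, hbig _ _ h2 h1⟩, ⟨n, hn, K', L', hK', hL', hbig _ _ h3 h4⟩⟩
  · obtain ⟨n, K, L, _, _, hK, hL, _, _, h1, h2, _, _⟩ := h d hd
    exact ⟨n, K, L, hK, hL, h1, h2⟩

end Vale.Agent.Results.P126.ScaleBelowTwo
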